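import Mathlib
import Vale.Agent.H9.CK.Base
import Vale.Agent.H9.CK.Semi
import Vale.Agent.H7.CK.F2

/-!
# P322: the profile `P2`, the functional `Gm`
-/

open Real Set

namespace CK

noncomputable def c0 : ℝ := 1 - 1 / (2 * log 2)

noncomputable def P2 (m : ℝ) : ℝ := (1 - m ^ 2) * (1 + c0 * m ^ 2)

noncomputable def Ht (m e : ℝ) : ℝ := (H (m + e) + H (m - e)) / 2

noncomputable def Gm (m e x : ℝ) : ℝ :=
  2 * H m - H (m + e) - H (m - e) + F2 (P2 m) x - F2 ((P2 (m + e) + P2 (m - e)) / 2) x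

theorem c0_lt : c0 < 0.27866 := by
  unfold c0
  have h1 := Real.log_two_gt_d9
  have h2 := Real.log_two_lt_d9
  have h3 : 0 < 2 * log 2 := by linarith
  have : 1 / (2 * log 2) > 0.72134 := by
    rw [gt_iff_lt, lt_div_iff₀ h3]; nlinarith
  linarith

theorem c0_gt : 0.27865 < c0 := by
  unfold c0
  have h1 := Real.log_two_gt_d9
  have h2 := Real.log_two_lt_d9
  have h3 : 0 < 2 * log 2 := by linarith
  have : 1 / (2 * log 2) < 0.72135 := by
    rw [div_lt_iff₀ h3]; nlinarith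
  linarith

theorem P2_pos {m : ℝ} (h : m ∈ Ioo (-1 : ℝ) 1) : 0 < P2 m := by
  unfold P2
  have h1 : 0 < 1 - m ^ 2 := by nlinarith [h.1, h.2]
  have h2 := c0_gt
  have h3 : 0 < 1 + c0 * m ^ 2 := by nlinarith [sq_nonneg m]
  exact mul_pos h1 h3

theorem P2_neg (m : ℝ) : P2 (-m) = P2 m := by unfold P2; ring

theorem P2_zero : P2 0 = 1 := by unfold P2; ring

/-- explicit form of the averaged profile. -/
theorem P2_mid (m e : ℝ) : (P2 (m + e) + P2 (m - e)) / 2
    = P2 m - e ^ 2 * ((1 - c0) + c0 * (6 * m ^ 2 + e ^ 2)) := by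
  unfold P2; ring

theorem Gm_neg_left (m e x : ℝ) : Gm (-m) e x = Gm m e x := by
  unfold Gm
  have e1 : -m + e = -(m - e) := by ring
  have e2 : -m - e = -(m + e) := by ring
  rw [e1, e2, H_neg, H_neg, H_neg, P2_neg, P2_neg, P2_neg, add_comm (P2 (m - e))]
  ring

theorem Gm_neg_right (m e x : ℝ) : Gm m (-e) x = Gm m e x := by
  unfold Gm
  have e1 : m + -e = m - e := by ring
  have e2 : m - -e = m + e := by ring
  rw [e1, e2, add_comm (P2 (m - e))]
  ring

theorem Gm_zero (m x : ℝ) : Gm m 0 x = 0 := by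
  unfold Gm; simp; ring

end CK
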