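import Mathlib
import Vale.Agent.H7.CK.KeyK
import Vale.Agent.H29.CK.Defs

/-!
# P322 (ii): `Gm` is increasing in `m ≥ 0`
-/

open Real Set

namespace CK

/-- Statement of Lemma K. -/
def KL : Prop := ∀ x P Q : ℝ, 0 < x → 0 < Q → Q ≤ P →
  Gw (winv (x / P)) - Gw (winv (x / Q)) ≤ 4 / 3 * (log 2) ^ 2 * log (P / Q)

/-- subgradient of `F2` in `P`. -/
theorem F2_sub {x P Q : ℝ} (hx : 0 < x) (hP : 0 < P) (hQ : 0 < Q) :
    F2 P x + (Q - P) * Gw (winv (x / P)) ≤ F2 Q x := by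
  rw [F2_eq hP hx]
  have h1 := F2_tangent (winv_nonneg (x / P)) hQ hx
  nlinarith

theorem g_mono {x P Q : ℝ} (hx : 0 < x) (hQ : 0 < Q) (hQP : Q ≤ P) :
    Gw (winv (x / Q)) ≤ Gw (winv (x / P)) := by
  rcases hQP.eq_or_lt with h | h
  · rw [h]
  · have h1 := F2_sub hx hQ (hQ.trans h)
    have h2 := F2_sub hx (hQ.trans h) hQ
    nlinarith

theorem F2_hasDerivAt (hK : KL) {x P : ℝ} (hx : 0 < x) (hP : 0 < P) :
    HasDerivAt (fun Q => F2 Q x) (Gw (winv (x / P))) P := by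
  rw [hasDerivAt_iff_isLittleO, Asymptotics.isLittleO_iff]
  intro c hc
  have hk : 0 < 4 / 3 * (log 2) ^ 2 := by have := Real.log_pos one_lt_two; positivity
  have hlog : ∀ᶠ Q in nhds P, |log Q - log P| < c / (4 / 3 * (log 2) ^ 2) := by
    have hcont : ContinuousAt log P := continuousAt_log hP.ne'
    have := Metric.continuousAt_iff'.1 hcont (c / (4 / 3 * (log 2) ^ 2)) (by positivity)
    simpa [Real.dist_eq] using this
  filter_upwards [hlog, lt_mem_nhds hP] with Q hQ1 hQ0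
  have hQ0 : 0 < Q := hQ0
  have h1 := F2_sub hx hP hQ0
  have h2 := F2_sub hx hQ0 hP
  rw [Real.norm_eq_abs, Real.norm_eq_abs, smul_eq_mul]
  have h3 : 0 ≤ F2 Q x - F2 P x - (Q - P) * Gw (winv (x / P)) := by linarith
  rw [abs_of_nonneg h3]
  have h4 : F2 Q x - F2 P x - (Q - P) * Gw (winv (x / P))
      ≤ (Q - P) * (Gw (winv (x / Q)) - Gw (winv (x / P))) := by linarith
  refine h4.trans ?_
  have h5 : c / (4 / 3 * (log 2) ^ 2) * (4 / 3 * (log 2) ^ 2) = c := by field_simp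
  rcases le_total Q P with h | h
  · have hk1 := hK x P Q hx hQ0 h
    have hm := g_mono hx hQ0 h
    rw [log_div hP.ne' hQ0.ne'] at hk1
    have h6 : log P - log Q ≤ |log Q - log P| := by rw [abs_sub_comm]; exact le_abs_self _
    have h7 : Gw (winv (x / P)) - Gw (winv (x / Q)) ≤ c := by nlinarith
    rw [abs_of_nonpos (by linarith)]
    nlinarith
  · have hk1 := hK x Q P hx hP h
    have hm := g_mono hx hP h
    rw [log_div hQ0.ne' hP.ne'] at hk1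
    have h6 : log Q - log P ≤ |log Q - log P| := le_abs_self _
    have h7 : Gw (winv (x / Q)) - Gw (winv (x / P)) ≤ c := by nlinarith
    rw [abs_of_nonneg (by linarith)]
    nlinarith

theorem A_diff {m e : ℝ} (hm : 0 ≤ m) (he : 0 ≤ e) (h1 : m + e < 1) :
    2 * m * e ^ 2 / ((1 - m) ^ 2 * ((1 + m) ^ 2 - e ^ 2)) ≤ A (m + e) + A (m - e) - 2 * A m := by
  have p1 : 0 < 1 + (m + e) := by linarith
  have p2 : 0 < 1 - (m + e) := by linarith
  have p3 : 0 < 1 + (m - e) := by linarith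
  have p4 : 0 < 1 - (m - e) := by linarith
  have p5 : 0 < 1 + m := by linarith
  have p6 : 0 < 1 - m := by linarith
  set a : ℝ := (1 - m) ^ 2 * ((1 + (m + e)) * (1 + (m - e))) with ha
  set b : ℝ := (1 + m) ^ 2 * ((1 - (m + e)) * (1 - (m - e))) with hb
  have ha0 : 0 < a := by positivity
  have hb0 : 0 < b := by positivity
  have hla : log a = 2 * log (1 - m) + (log (1 + (m + e)) + log (1 + (m - e))) := by
    rw [ha, log_mul (by positivity) (by positivity), log_pow, log_mul p1.ne' p3.ne']; norm_num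
  have hlb : log b = 2 * log (1 + m) + (log (1 - (m + e)) + log (1 - (m - e))) := by
    rw [hb, log_mul (by positivity) (by positivity), log_pow, log_mul p2.ne' p4.ne']; norm_num
  have hlog : 1 - (a / b)⁻¹ ≤ log (a / b) := one_sub_inv_le_log_of_pos (by positivity)
  rw [log_div ha0.ne' hb0.ne', inv_div] at hlog
  have hea : (1 - m) ^ 2 * ((1 + m) ^ 2 - e ^ 2) = a := by rw [ha]; ring
  have heq : 2 * m * e ^ 2 / a = (1 - b / a) / 2 := by
    field_simp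
    rw [ha, hb]; ring
  rw [hea, heq]
  unfold A
  linarith

theorem A_diff_nonneg {m e : ℝ} (hm : 0 ≤ m) (he : 0 ≤ e) (h1 : m + e < 1) :
    0 < (1 - m) ^ 2 * ((1 + m) ^ 2 - e ^ 2) := by
  have : 0 < 1 - m := by linarith
  have : 0 < (1 + m) ^ 2 - e ^ 2 := by nlinarith
  positivity

theorem kappa_le : 4 / 3 * (log 2) ^ 2 ≤ 0.6407 := by
  have h1 := Real.log_two_lt_d9
  have h2 := Real.log_two_gt_d9
  nlinarith

theorem P2_ge {t : ℝ} (h : t ∈ Ioo (-1 : ℝ) 1) : 1 - t ^ 2 ≤ P2 t := by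
  unfold P2
  have h1 : 0 < 1 - t ^ 2 := by nlinarith [h.1, h.2]
  have h2 := c0_gt
  have h3 : 0 ≤ c0 * t ^ 2 := by nlinarith [sq_nonneg t]
  nlinarith

/-- the one-variable polynomial inequality -/
theorem poly_ii {m : ℝ} (h0 : 0 ≤ m) (h1 : m ≤ 1) :
    0.6407 * (2 * (1 - c0) + 4 * c0 * m ^ 2) * ((1 - c0) + c0 * (6 * m ^ 2 + (1 - m) ^ 2)) * (1 - m)
      ≤ 1 := by
  have hc1 := c0_lt
  have hc2 := c0_gt
  have e1 : 2 * (1 - c0) + 4 * c0 * m ^ 2 ≤ 1.4427 + 1.1147 * m ^ 2 := by nlinarith [sq_nonneg m]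
  have e2 : (1 - c0) + c0 * (6 * m ^ 2 + (1 - m) ^ 2) ≤ 1 - 0.5573 * m + 1.9507 * m ^ 2 := by
    nlinarith [sq_nonneg m]
  have e3 : 0 ≤ 1 - 0.5573 * m + 1.9507 * m ^ 2 := by nlinarith [sq_nonneg m]
  have e4 : 0 ≤ (1 - c0) + c0 * (6 * m ^ 2 + (1 - m) ^ 2) := by nlinarith [sq_nonneg m, sq_nonneg (1 - m)]
  have e5 : 0 ≤ 2 * (1 - c0) + 4 * c0 * m ^ 2 := by nlinarith [sq_nonneg m]
  have e6 : (2 * (1 - c0) + 4 * c0 * m ^ 2) * ((1 - c0) + c0 * (6 * m ^ 2 + (1 - m) ^ 2))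
      ≤ (1.4427 + 1.1147 * m ^ 2) * (1 - 0.5573 * m + 1.9507 * m ^ 2) :=
    mul_le_mul e1 e2 e4 (by positivity)
  have e7 : 0.6407 * ((1.4427 + 1.1147 * m ^ 2) * (1 - 0.5573 * m + 1.9507 * m ^ 2)) * (1 - m) ≤ 1 := by
    have k1 : 0 ≤ 1 - m := by linarith
    nlinarith [mul_nonneg h0 k1, mul_nonneg (mul_nonneg h0 k1) h0, mul_nonneg (mul_nonneg h0 k1) k1,
      mul_nonneg (mul_nonneg h0 k1) (sq_nonneg m), mul_nonneg (mul_nonneg h0 k1) (sq_nonneg (m * m)),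
      sq_nonneg (m - 1 / 2), mul_nonneg k1 (sq_nonneg m), pow_nonneg h0 3, pow_nonneg h0 5,
      mul_nonneg (mul_nonneg h0 k1) (sq_nonneg (m - 1 / 2)), mul_nonneg (pow_nonneg h0 3) k1]
  have k1 : 0 ≤ 1 - m := by linarith
  nlinarith [mul_le_mul_of_nonneg_right e6 k1]

theorem P2_hasDerivAt (t : ℝ) : HasDerivAt P2 (-(2 * (1 - c0) * t + 4 * c0 * t ^ 3)) t := by
  have : HasDerivAt (fun t : ℝ => (1 - t ^ 2) * (1 + c0 * t ^ 2))
      ((0 - 2 * t) * (1 + c0 * t ^ 2) + (1 - t ^ 2) * (0 + c0 * (2 * t))) t := by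
    have q1 : HasDerivAt (fun t : ℝ => t ^ 2) (2 * t) t := by
      simpa using hasDerivAt_pow 2 t
    exact ((hasDerivAt_const t (1:ℝ)).sub q1).mul ((hasDerivAt_const t (1:ℝ)).add (q1.const_mul c0))
  refine this.congr_deriv ?_
  ring

theorem Pbar_pos {e t : ℝ} (he : 0 ≤ e) (ht : 0 ≤ t) (ht1 : t + e < 1) :
    0 < (P2 (t + e) + P2 (t - e)) / 2 := by
  have a1 := P2_pos (m := t + e) ⟨by linarith, by linarith⟩
  have a2 := P2_pos (m := t - e) ⟨by linarith, by linarith⟩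
  linarith

theorem Pbar_hasDerivAt (e t : ℝ) : HasDerivAt (fun t => (P2 (t + e) + P2 (t - e)) / 2)
    (-(2 * (1 - c0) * t + 4 * c0 * t ^ 3) - 12 * c0 * e ^ 2 * t) t := by
  have q : (fun t => (P2 (t + e) + P2 (t - e)) / 2)
      = fun t => P2 t - e ^ 2 * ((1 - c0) + c0 * (6 * t ^ 2 + e ^ 2)) := by
    funext t; exact P2_mid t e
  rw [q]
  have q1 : HasDerivAt (fun t : ℝ => t ^ 2) (2 * t) t := by
    simpa using hasDerivAt_pow 2 t
  have q2 : HasDerivAt (fun t : ℝ => e ^ 2 * ((1 - c0) + c0 * (6 * t ^ 2 + e ^ 2)))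
      (e ^ 2 * (c0 * (6 * (2 * t)))) t := by
    exact ((((q1.const_mul 6).add_const (e ^ 2)).const_mul c0).const_add (1 - c0)).const_mul (e ^ 2)
  refine ((P2_hasDerivAt t).sub q2).congr_deriv ?_
  ring

theorem Gm_hasDerivAt (hK : KL) {e x t : ℝ} (hx : 0 < x) (he : 0 ≤ e) (ht : 0 ≤ t)
    (ht1 : t + e < 1) : HasDerivAt (fun t => Gm t e x)
      (A (t + e) + A (t - e) - 2 * A t
        + Gw (winv (x / P2 t)) * (-(2 * (1 - c0) * t + 4 * c0 * t ^ 3))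
        - Gw (winv (x / ((P2 (t + e) + P2 (t - e)) / 2))) *
          (-(2 * (1 - c0) * t + 4 * c0 * t ^ 3) - 12 * c0 * e ^ 2 * t)) t := by
  have d1 := hasDerivAt_H (t := t) ⟨by linarith, by linarith⟩
  have d2 : HasDerivAt (fun t => H (t + e)) (-A (t + e)) t :=
    HasDerivAt.comp_add_const t e (hasDerivAt_H (t := t + e) ⟨by linarith, by linarith⟩)
  have d3 : HasDerivAt (fun t => H (t - e)) (-A (t - e)) t :=
    HasDerivAt.comp_sub_const t e (hasDerivAt_H (t := t - e) ⟨by linarith, by linarith⟩)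
  have d4 : HasDerivAt (fun t => F2 (P2 t) x) _ t :=
    HasDerivAt.comp (h₂ := fun Q => F2 Q x) t
      (F2_hasDerivAt hK hx (P2_pos (m := t) ⟨by linarith, by linarith⟩)) (P2_hasDerivAt t)
  have d5 : HasDerivAt (fun t => F2 ((P2 (t + e) + P2 (t - e)) / 2) x) _ t :=
    HasDerivAt.comp (h₂ := fun Q => F2 Q x) t
      (F2_hasDerivAt hK hx (Pbar_pos he ht ht1)) (Pbar_hasDerivAt e t)
  have := ((((d1.const_mul 2).sub d2).sub d3).add d4).sub d5
  refine this.congr_deriv ?_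
  ring

/-- the key polynomial inequality `κ p1 K1 a ≤ 2 Pbar`. -/
theorem key_ii {e t : ℝ} (he : 0 ≤ e) (t0 : 0 ≤ t) (t1 : t + e < 1) :
    4 / 3 * (log 2) ^ 2 * (2 * (1 - c0) + 4 * c0 * t ^ 2)
        * ((1 - c0) + c0 * (6 * t ^ 2 + e ^ 2)) * ((1 - t) ^ 2 * ((1 + t) ^ 2 - e ^ 2))
      ≤ 2 * ((P2 (t + e) + P2 (t - e)) / 2) := by
  have hc1 := c0_lt
  have hc2 := c0_gt
  have hD := A_diff_nonneg t0 he t1
  have hR : 1 - t ^ 2 - e ^ 2 ≤ (P2 (t + e) + P2 (t - e)) / 2 := by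
    have a1 := P2_ge (t := t + e) ⟨by linarith, by linarith⟩
    have a2 := P2_ge (t := t - e) ⟨by linarith, by linarith⟩
    linarith [a1, a2, (by ring : (t + e) ^ 2 + (t - e) ^ 2 = 2 * t ^ 2 + 2 * e ^ 2)]
  have he2 : e ^ 2 ≤ (1 - t) ^ 2 := by
    have : e ≤ 1 - t := by linarith
    exact pow_le_pow_left₀ he this 2
  have hR0 : 0 ≤ 1 - t ^ 2 - e ^ 2 := by nlinarith
  have ha : (1 - t) ^ 2 * ((1 + t) ^ 2 - e ^ 2) ≤ 2 * (1 - t) * (1 - t ^ 2 - e ^ 2) := by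
    have h2 : 2 * (1 - t) * (1 - t ^ 2 - e ^ 2) - (1 - t) ^ 2 * ((1 + t) ^ 2 - e ^ 2)
        = (1 - t) * (1 + t) * ((1 - t) ^ 2 - e ^ 2) := by ring
    have h3 : 0 ≤ (1 - t) ^ 2 - e ^ 2 := by linarith
    have h4 : 0 ≤ (1 - t) * (1 + t) := mul_nonneg (by linarith) (by linarith)
    linarith [mul_nonneg h4 h3]
  have hk1pos : 0 ≤ (1 - c0) + c0 * (6 * t ^ 2 + e ^ 2) := by
    have : 0 ≤ c0 * (6 * t ^ 2 + e ^ 2) := mul_nonneg (by linarith) (by positivity)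
    linarith
  have hp1 : 0 ≤ 2 * (1 - c0) + 4 * c0 * t ^ 2 := by
    have : 0 ≤ 4 * c0 * t ^ 2 := mul_nonneg (by linarith) (by positivity)
    linarith
  have hpoly := poly_ii t0 (by linarith : t ≤ 1)
  have hK1le : (1 - c0) + c0 * (6 * t ^ 2 + e ^ 2) ≤ (1 - c0) + c0 * (6 * t ^ 2 + (1 - t) ^ 2) := by
    have : 0 ≤ c0 * ((1 - t) ^ 2 - e ^ 2) := mul_nonneg (by linarith) (by linarith)
    linarith
  have hkap := kappa_le
  have s1 : 4 / 3 * (log 2) ^ 2 * (2 * (1 - c0) + 4 * c0 * t ^ 2)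
      * ((1 - c0) + c0 * (6 * t ^ 2 + e ^ 2))
      ≤ 0.6407 * (2 * (1 - c0) + 4 * c0 * t ^ 2)
      * ((1 - c0) + c0 * (6 * t ^ 2 + (1 - t) ^ 2)) :=
    mul_le_mul (mul_le_mul_of_nonneg_right hkap hp1) hK1le hk1pos
      (mul_nonneg (by norm_num) hp1)
  have s2 : 0 ≤ 0.6407 * (2 * (1 - c0) + 4 * c0 * t ^ 2)
      * ((1 - c0) + c0 * (6 * t ^ 2 + (1 - t) ^ 2)) :=
    mul_nonneg (mul_nonneg (by norm_num) hp1) (hk1pos.trans hK1le)
  have s3 := mul_le_mul s1 ha hD.le s2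
  have s4 := mul_le_mul_of_nonneg_right hpoly (by linarith : 0 ≤ 2 * (1 - t ^ 2 - e ^ 2))
  refine s3.trans ?_
  calc _ = 0.6407 * (2 * (1 - c0) + 4 * c0 * t ^ 2)
      * ((1 - c0) + c0 * (6 * t ^ 2 + (1 - t) ^ 2)) * (1 - t) * (2 * (1 - t ^ 2 - e ^ 2)) := by ring
    _ ≤ 1 * (2 * (1 - t ^ 2 - e ^ 2)) := s4
    _ ≤ _ := by linarith

theorem deriv_ii (hK : KL) {e x t : ℝ} (hx : 0 < x) (he : 0 ≤ e) (t0 : 0 ≤ t)
    (t1 : t + e < 1) : 0 ≤ A (t + e) + A (t - e) - 2 * A t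
        + Gw (winv (x / P2 t)) * (-(2 * (1 - c0) * t + 4 * c0 * t ^ 3))
        - Gw (winv (x / ((P2 (t + e) + P2 (t - e)) / 2))) *
          (-(2 * (1 - c0) * t + 4 * c0 * t ^ 3) - 12 * c0 * e ^ 2 * t) := by
  have hPb := Pbar_pos he t0 t1
  have hPmid := P2_mid t e
  have hkey := key_ii he t0 t1
  have hA := A_diff t0 he t1
  have hD := A_diff_nonneg t0 he t1
  have hc1 := c0_lt
  have hc2 := c0_gt
  have hk1pos : 0 ≤ (1 - c0) + c0 * (6 * t ^ 2 + e ^ 2) := by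
    have : 0 ≤ c0 * (6 * t ^ 2 + e ^ 2) := mul_nonneg (by linarith) (by positivity)
    linarith
  have hp1 : 0 ≤ 2 * (1 - c0) + 4 * c0 * t ^ 2 := by
    have : 0 ≤ 4 * c0 * t ^ 2 := mul_nonneg (by linarith) (by positivity)
    linarith
  have hkap0 : 0 ≤ 4 / 3 * (log 2) ^ 2 := by positivity
  generalize hPbdef : (P2 (t + e) + P2 (t - e)) / 2 = Pb at *
  have hle : Pb ≤ P2 t := by
    rw [hPmid]; linarith [mul_nonneg (sq_nonneg e) hk1pos]
  have hkk := hK x (P2 t) Pb hx hPb hle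
  have hg := Gw_nonneg (winv_nonneg (x / Pb))
  have hlog : log (P2 t / Pb) ≤ P2 t / Pb - 1 :=
    Real.log_le_sub_one_of_pos (div_pos (hPb.trans_le hle) hPb)
  have hlast : 0 ≤ 12 * c0 * e ^ 2 * t * Gw (winv (x / Pb)) := by
    have : 0 ≤ c0 := by linarith
    positivity
  generalize Gw (winv (x / P2 t)) = g1 at *
  generalize Gw (winv (x / Pb)) = g2 at *
  generalize A (t + e) + A (t - e) - 2 * A t = dA at *
  generalize (1 - t) ^ 2 * ((1 + t) ^ 2 - e ^ 2) = a at *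
  have hring : -(2 * (1 - c0) * t + 4 * c0 * t ^ 3) = - (t * (2 * (1 - c0) + 4 * c0 * t ^ 2)) := by
    ring
  rw [hring]
  generalize 2 * (1 - c0) + 4 * c0 * t ^ 2 = p1 at *
  generalize (1 - c0) + c0 * (6 * t ^ 2 + e ^ 2) = k1 at *
  generalize 4 / 3 * (log 2) ^ 2 = κ at *
  have hdiv : P2 t / Pb - 1 = e ^ 2 * k1 / Pb := by
    have : P2 t = Pb + e ^ 2 * k1 := by linarith
    rw [this, add_div, div_self hPb.ne']; ring
  have hmul : t * p1 * (κ * log (P2 t / Pb)) ≤ t * p1 * (κ * (e ^ 2 * k1 / Pb)) := by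
    rw [← hdiv]
    gcongr
  have hfin : t * p1 * (κ * (e ^ 2 * k1 / Pb)) ≤ 2 * t * e ^ 2 / a := by
    rw [le_div_iff₀ hD]
    have h8 : t * p1 * (κ * (e ^ 2 * k1 / Pb)) * a = (t * e ^ 2) * ((κ * p1 * k1 * a) / Pb) := by
      field_simp
    rw [h8]
    have h9 : (κ * p1 * k1 * a) / Pb ≤ 2 := by
      rw [div_le_iff₀ hPb]; exact hkey
    have h10 : 0 ≤ t * e ^ 2 := by positivity
    have := mul_le_mul_of_nonneg_left h9 h10
    linarith
  have hkk2 : t * p1 * (g1 - g2) ≤ t * p1 * (κ * log (P2 t / Pb)) := by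
    gcongr
  have hring2 : dA + g1 * -(t * p1) - g2 * (-(t * p1) - 12 * c0 * e ^ 2 * t)
      = dA - t * p1 * (g1 - g2) + 12 * c0 * e ^ 2 * t * g2 := by ring
  rw [hring2]
  linarith

theorem Gm_mono' (hK : KL) {m m' e x : ℝ} (h0 : 0 ≤ m) (h1 : m ≤ m') (he : 0 ≤ e)
    (h2 : m' + e < 1) (hx : 0 < x) : Gm m e x ≤ Gm m' e x := by
  have hmono : MonotoneOn (fun t => Gm t e x) (Icc m m') := by
    refine monotoneOn_of_deriv_nonneg (convex_Icc m m')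
      (fun t ht => (Gm_hasDerivAt hK hx he (h0.trans ht.1)
        (by linarith [ht.2])).continuousAt.continuousWithinAt)
      (fun t ht => by
        rw [interior_Icc] at ht
        exact (Gm_hasDerivAt hK hx he (h0.trans ht.1.le)
          (by linarith [ht.2])).differentiableAt.differentiableWithinAt)
      ?_
    intro t ht
    rw [interior_Icc] at ht
    rw [(Gm_hasDerivAt hK hx he (h0.trans ht.1.le) (by linarith [ht.2])).deriv]
    exact deriv_ii hK hx he (h0.trans ht.1.le) (by linarith [ht.2])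
  exact hmono ⟨le_rfl, h1⟩ ⟨h1, le_rfl⟩ h1

/-- Lemma K (from `H7/CK/KeyK.lean`). -/
theorem KL_holds : KL := by
  intro x P Q hx hQ hPQ
  have h := gg_diff_PQ (x := x) hx hQ hPQ
  unfold gg kapK at h
  exact h

/-- **(ii)** `Gm` is nondecreasing in `m ≥ 0`. -/
theorem Gm_mono {m m' e x : ℝ} (h0 : 0 ≤ m) (h1 : m ≤ m') (he : 0 ≤ e)
    (h2 : m' + e < 1) (hx : 0 < x) : Gm m e x ≤ Gm m' e x :=
  Gm_mono' KL_holds h0 h1 he h2 hx

end CK
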